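import Vale.Agent.N062.Game

/-! # Periodic pairings, the Y-pentomino, and the classification of the winners -/

namespace Vale.Agent.N062

/-- the eight signed permutations, as data -/
def oris : List (ℤ × ℤ × Bool) :=
  [(1, 1, false), (1, -1, false), (-1, 1, false), (-1, -1, false),
   (1, 1, true), (1, -1, true), (-1, 1, true), (-1, -1, true)]

theorem signed_iff' {R : Cell → Cell} :
    IsSignedPerm R ↔ ∃ o ∈ oris, R = rot o.1 o.2.1 o.2.2 := by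
  rw [signed_iff]
  constructor
  · rintro ⟨a, b, s, ha, hb, rfl⟩
    refine ⟨(a, b, s), ?_, rfl⟩
    rcases ha with rfl | rfl <;> rcases hb with rfl | rfl <;> cases s <;> simp [oris]
  · rintro ⟨o, ho, rfl⟩
    refine ⟨o.1, o.2.1, o.2.2, ?_, ?_, rfl⟩ <;>
      simp only [oris, List.mem_cons, List.not_mem_nil, or_false] at ho <;>
      rcases ho with rfl | rfl | rfl | rfl | rfl | rfl | rfl | rfl <;> simp

/-- a periodic pairing: the cell `c` has class `(α c.1 + β c.2) mod M` and its partner is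
`c + D[class]`; with `z = true` the cells of class `0` are forbidden to Maker -/
structure PP where
  α : ℤ
  β : ℤ
  M : ℕ
  D : List Cell
  z : Bool

def PP.lin (q : PP) (c : Cell) : ℤ := q.α * c.1 + q.β * c.2

def PP.d (q : PP) (r : ℤ) : Cell := q.D.getD (r % q.M).toNat (0, 0)

def PP.π (q : PP) (c : Cell) : Cell := c + q.d (q.lin c)

def PP.F (q : PP) : Set Cell := {c | q.z = true ∧ (q.M : ℤ) ∣ q.lin c}

/-- the finite test -/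
def PP.ok (q : PP) (l : List Cell) : Bool :=
  decide (0 < q.M) && (List.range q.M).all fun r =>
    decide (q.d (r + q.lin (q.d r)) = -q.d r) &&
    oris.all fun o =>
      let A := l.map (rot o.1 o.2.1 o.2.2)
      A.any fun x => (q.z && decide ((r + q.lin x) % q.M = 0)) ||
        (decide (q.d (r + q.lin x) ≠ 0) && decide (x + q.d (r + q.lin x) ∈ A))

theorem PP.lin_add (q : PP) (c e : Cell) : q.lin (c + e) = q.lin c + q.lin e := by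
  simp only [PP.lin, Prod.fst_add, Prod.snd_add]
  ring

theorem PP.d_congr (q : PP) {r r' : ℤ} (h : r % q.M = r' % q.M) : q.d r = q.d r' := by
  simp only [PP.d, h]

theorem PP.prevents (q : PP) (l : List Cell) (h : q.ok l = true) :
    BreakerPrevents l.toFinset q.F := by
  simp only [PP.ok, Bool.and_eq_true, decide_eq_true_eq, List.all_eq_true, List.mem_range,
    List.any_eq_true, Bool.or_eq_true] at h
  obtain ⟨hM, h⟩ := h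
  have hM' : (0 : ℤ) < q.M := by exact_mod_cast hM
  have red : ∀ a : ℤ, ∃ r < q.M, ∀ e : ℤ, ((r : ℤ) + e) % q.M = (a + e) % q.M := by
    intro a
    have h1 := Int.emod_nonneg a hM'.ne'
    have h2 := Int.emod_lt_of_pos a hM'
    refine ⟨(a % q.M).toNat, by omega, fun e => ?_⟩
    rw [Int.toNat_of_nonneg h1, Int.emod_add_emod]
  refine prevents_of_pairing q.π (fun c => ?_) ?_
  · obtain ⟨r, hr, he⟩ := red (q.lin c)
    have h1 := (h r hr).1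
    have h2 : q.d r = q.d (q.lin c) := q.d_congr (by simpa using he 0)
    rw [q.d_congr (he _), h2] at h1
    simp only [PP.π, q.lin_add, h1]
    simp
  · rintro T ⟨t, R, hR, rfl⟩
    obtain ⟨o, ho, rfl⟩ := signed_iff'.1 hR
    obtain ⟨r, hr, he⟩ := red (q.lin t)
    obtain ⟨x, hx, h1⟩ := (h r hr).2 o ho
    have hmem : ∀ x ∈ l.map (rot o.1 o.2.1 o.2.2),
        t + x ∈ l.toFinset.image fun p => t + rot o.1 o.2.1 o.2.2 p := by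
      intro x hx
      obtain ⟨p, hp, rfl⟩ := List.mem_map.1 hx
      exact Finset.mem_image.2 ⟨p, List.mem_toFinset.2 hp, rfl⟩
    rcases h1 with ⟨h1, h2⟩ | ⟨h1, h2⟩
    · refine Or.inl ⟨t + x, hmem x hx, h1, ?_⟩
      rw [q.lin_add]
      exact Int.dvd_of_emod_eq_zero (by rw [← he, h2])
    · rw [q.d_congr (he _), ← q.lin_add] at h1 h2
      refine Or.inr ⟨t + x, hmem x hx, ?_, ?_⟩
      · simpa only [PP.π, add_assoc] using hmem _ h2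
      · simpa [PP.π] using h1

theorem PP.prevents_empty (q : PP) (l : List Cell) (hz : q.z = false) (h : q.ok l = true) :
    BreakerPrevents l.toFinset ∅ := by
  have := q.prevents l h
  rwa [show q.F = ∅ from by ext c; simp [PP.F, hz]] at this

/-- `A` contains a copy of `l` (the search uses that `l` contains the origin) -/
def embB (l A : List Cell) : Bool :=
  oris.any fun o => A.any fun t => l.all fun p => decide (t + rot o.1 o.2.1 o.2.2 p ∈ A)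

theorem embB_sound {l A : List Cell} (h : embB l A = true) :
    ∃ V ⊆ A.toFinset, IsCopyOf l.toFinset V := by
  simp only [embB, List.any_eq_true, List.all_eq_true, decide_eq_true_eq] at h
  obtain ⟨o, ho, t, -, h⟩ := h
  refine ⟨_, ?_, t, _, signed_iff'.2 ⟨o, ho, rfl⟩, rfl⟩
  intro c hc
  obtain ⟨p, hp, rfl⟩ := Finset.mem_image.1 hc
  exact List.mem_toFinset.2 (h p (List.mem_toFinset.1 hp))

def snakyL : List Cell := [(0, 0), (1, 0), (2, 0), (3, 0), (3, 1), (4, 1)]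

def yL : List Cell := [(0, 0), (1, 0), (2, 0), (3, 0), (1, 1)]

theorem snakyL_eq : snakyL.toFinset = snaky := by decide

theorem yL_eq : yL.toFinset = yPentomino := by decide

/-- the twelve winners -/
def winners : List (List Cell) :=
  [[(0, 0)], [(0, 0), (1, 0)], [(0, 0), (1, 0), (2, 0)], [(0, 0), (1, 0), (1, 1)],
   [(0, 0), (1, 0), (2, 0), (3, 0)], [(0, 0), (1, 0), (2, 0), (2, 1)],
   [(0, 0), (1, 0), (2, 0), (1, 1)], [(0, 0), (1, 0), (1, 1), (2, 1)],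
   [(0, 0), (1, 0), (2, 0), (3, 0), (3, 1)], [(0, 0), (1, 0), (2, 0), (2, 1), (3, 1)], yL, snakyL]

/-- aligned vertical dominoes -/
def ppA : PP := ⟨0, 1, 2, [(0, 1), (0, -1)], false⟩
/-- the brick wall -/
def ppB : PP := ⟨1, 1, 2, [(1, 0), (-1, 0)], false⟩
/-- herringbone -/
def ppC : PP := ⟨1, -1, 4, [(-1, 0), (0, -1), (0, 1), (1, 0)], false⟩
/-- bricks shifted every second row -/
def ppD : PP := ⟨2, 1, 4, [(-1, 0), (-1, 0), (1, 0), (1, 0)], false⟩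
/-- period `2 × 3` -/
def ppE : PP := ⟨3, 2, 6, [(1, 0), (0, -1), (0, 1), (-1, 0), (0, -1), (0, 1)], false⟩

/-- the twelve minimal losers, each with its pairing -/
def losers : List (List Cell × PP) :=
  [([(0, 0), (0, 1), (1, 0), (1, 1)], ppB),
   ([(0, 0), (0, 1), (0, 2), (0, 3), (0, 4)], ppC),
   ([(0, 0), (0, 1), (0, 2), (1, 0), (1, 2)], ppD),
   ([(0, 0), (0, 1), (0, 2), (1, 0), (2, 0)], ppA),
   ([(0, 0), (0, 1), (0, 2), (1, 1), (2, 1)], ppA),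
   ([(0, 0), (0, 1), (1, 1), (1, 2), (2, 1)], ppA),
   ([(0, 0), (0, 1), (1, 1), (1, 2), (2, 2)], ppA),
   ([(0, 0), (0, 1), (1, 1), (2, 1), (2, 2)], ppA),
   ([(0, 0), (1, 0), (-1, 0), (0, 1), (0, -1)], ppA),
   ([(0, 0), (0, 1), (0, 2), (0, 3), (1, 0), (1, 3)], ppB),
   ([(0, 0), (0, 1), (0, 2), (1, 2), (1, 3), (1, 4)], ppE),
   ([(0, 0), (0, 1), (1, 1), (2, 1), (3, 1), (3, 2)], ppA)]

theorem losers_ok : losers.all (fun e => !e.2.z && e.2.ok e.1) = true := by decide +kernel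

theorem losers_lose {e : List Cell × PP} (he : e ∈ losers) : BreakerPrevents e.1.toFinset ∅ := by
  have := List.all_eq_true.1 losers_ok e he
  rw [Bool.and_eq_true, Bool.not_eq_true'] at this
  exact e.2.prevents_empty e.1 this.1 this.2

def dirs : List Cell := [(1, 0), (-1, 0), (0, 1), (0, -1)]

theorem grow_ok : winners.all (fun g => g.all fun p => dirs.all fun d =>
    decide (p + d ∈ g) ||
    winners.any (fun g' => decide (g.toFinset.card < g'.toFinset.card) && embB g' ((p + d) :: g)) ||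
    losers.any fun e => embB e.1 ((p + d) :: g)) = true := by decide +kernel

theorem winners_ok : winners.all (fun g => embB g snakyL || embB g yL) = true := by decide +kernel

theorem dir_of_adj {R : Cell → Cell} (hR : IsSignedPerm R) {a c : Cell}
    (h : |a.1 - c.1| + |a.2 - c.2| = 1) : ∃ d ∈ dirs, c = a + R d := by
  obtain ⟨S, hS, -, h2⟩ := signed_inv hR
  refine ⟨S (c - a), ?_, by rw [h2]; simp⟩
  have h3 : c - a ∈ dirs := by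
    have e : c - a = (c.1 - a.1, c.2 - a.2) := rfl
    simp only [dirs, e, List.mem_cons, Prod.mk.injEq, List.not_mem_nil, or_false]
    rcases abs_cases (a.1 - c.1) with h4 | h4 <;> rcases abs_cases (a.2 - c.2) with h5 | h5 <;>
      omega
  obtain ⟨o, ho, rfl⟩ := signed_iff'.1 hS
  have : ∀ o ∈ oris, ∀ d ∈ dirs, rot o.1 o.2.1 o.2.2 d ∈ dirs := by decide
  exact this o ho _ h3

theorem IsPolyomino.cut {P A : Finset Cell} (hP : IsPolyomino P) (hA : A ⊆ P) (hne : A.Nonempty)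
    (hAP : A ≠ P) : ∃ a ∈ A, ∃ c ∈ P, c ∉ A ∧ |a.1 - c.1| + |a.2 - c.2| = 1 := by
  obtain ⟨u, hu⟩ := hne
  obtain ⟨v, hv, hvA⟩ := Finset.exists_of_ssubset (Finset.ssubset_iff_subset_ne.2 ⟨hA, hAP⟩)
  obtain ⟨w⟩ := hP.preconnected ⟨u, hA hu⟩ ⟨v, hv⟩
  obtain ⟨d, -, h1, h2⟩ := w.exists_boundary_dart {x | x.1 ∈ A} hu hvA
  refine ⟨d.fst.1, h1, d.snd.1, d.snd.2, h2, ?_⟩
  have h3 := d.adj
  rw [SimpleGraph.comap_adj, SimpleGraph.fromRel_adj] at h3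
  rcases h3.2 with h4 | h4
  · exact h4
  · rw [abs_sub_comm, abs_sub_comm d.fst.1.2]
    exact h4

/-- every polyomino is a copy of one of the twelve winners or contains a copy of one of the twelve
minimal losers -/
theorem dichotomy {P : Finset Cell} (hP : IsPolyomino P) :
    (∃ g ∈ winners, IsCopyOf g.toFinset P) ∨
      ∃ e ∈ losers, ∃ V ⊆ P, IsCopyOf e.1.toFinset V := by
  classical
  obtain ⟨⟨u, hu⟩⟩ := hP.nonempty
  let 𝒜 := P.powerset.filter fun A => ∃ g ∈ winners, IsCopyOf g.toFinset A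
  have hne : 𝒜.Nonempty := by
    refine ⟨{u}, Finset.mem_filter.2 ⟨Finset.mem_powerset.2 (by simpa using hu), [(0, 0)],
      by simp [winners], u, rot 1 1 false, signed_iff.2 ⟨1, 1, false, by simp, by simp, rfl⟩, ?_⟩⟩
    have : ((0, 0) : Cell) = 0 := rfl
    simp [rot, this]
  obtain ⟨A, hA, hmax⟩ := 𝒜.exists_max_image Finset.card hne
  obtain ⟨hAP, g, hg, hgA⟩ := Finset.mem_filter.1 hA
  rw [Finset.mem_powerset] at hAP
  by_cases hEq : A = P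
  · exact Or.inl ⟨g, hg, hEq ▸ hgA⟩
  have hcard := hgA.card
  have hAne : A.Nonempty := by
    rw [← Finset.card_pos, hcard]
    have : ∀ g ∈ winners, 0 < g.toFinset.card := by decide
    exact this g hg
  obtain ⟨a, ha, c, hc, hcA, hadj⟩ := hP.cut hAP hAne hEq
  obtain ⟨t, R, hR, rfl⟩ := hgA
  obtain ⟨p, hp, rfl⟩ := Finset.mem_image.1 ha
  obtain ⟨d, hd, rfl⟩ := dir_of_adj hR hadj
  rw [add_assoc, ← signed_add hR] at hc hcA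
  have hbig : ∃ U ⊆ P, IsCopyOf ((p + d) :: g).toFinset U := by
    refine ⟨_, ?_, t, R, hR, rfl⟩
    rw [List.toFinset_cons, Finset.image_insert]
    exact Finset.insert_subset hc hAP
  obtain ⟨U, hU, hU'⟩ := hbig
  have h := List.all_eq_true.1 (List.all_eq_true.1 (List.all_eq_true.1 grow_ok g hg) p
    (List.mem_toFinset.1 hp)) d hd
  simp only [Bool.or_eq_true, decide_eq_true_eq, List.any_eq_true, Bool.and_eq_true] at h
  rcases h with (h | ⟨g', hg', h1, h2⟩) | ⟨e, he, h⟩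
  · exact absurd (Finset.mem_image.2 ⟨p + d, List.mem_toFinset.2 h, rfl⟩) hcA
  · obtain ⟨V, hV, hV'⟩ := embB_sound h2
    obtain ⟨W, hW, hW'⟩ := IsCopyOf.sub hV hU'
    have h3 := hV'.trans hW'
    have h4 := hmax W (Finset.mem_filter.2 ⟨Finset.mem_powerset.2 (hW.trans hU), g', hg', h3⟩)
    rw [hcard, h3.card] at h4
    omega
  · obtain ⟨V, hV, hV'⟩ := embB_sound h
    obtain ⟨W, hW, hW'⟩ := IsCopyOf.sub hV hU'
    exact Or.inr ⟨e, he, W, hW.trans hU, hV'.trans hW'⟩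

def yT0 : Tr :=
  (.rp (-1, 0) (.mg (.mg (.mg (.mg (.rp (-2, -1) (.mg (.rp (-2, 0) (.mg (.rp (-3, 0) (.cp (-3,
  0) 1 0 false)) (.rp (-2, 1) (.mg (.rp (-2, 2) (.cp (-2, -1) 1 1 true)) (.rp (-2, -2) (.cp (-2,
  1) 1 0 true)))))) (.rp (-1, -1) (.mg (.rp (0, -1) (.mg (.rp (1, -1) (.cp (-2, -1) 1 1 false))
  (.rp (-3, -1) (.cp (0, -1) 0 1 false)))) (.rp (-1, 1) (.mg (.rp (-1, 2) (.cp (-1, -1) 1 1
  true)) (.rp (-1, -2) (.cp (-1, 1) 1 0 true)))))))) (.rp (-2, 0) (.mg (.rp (-3, 0) (.mg (.rp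
  (-2, 1) (.cp (-3, 0) 1 1 false)) (.rp (-2, -1) (.cp (-3, 0) 1 0 false)))) (.rp (1, 0) (.mg
  (.rp (-1, 1) (.cp (-2, 0) 1 1 false)) (.rp (0, -1) (.cp (1, 0) 0 0 false))))))) (.rp (-2, 0)
  (.mg (.rp (-3, 0) (.mg (.rp (-2, 1) (.cp (-3, 0) 1 1 false)) (.rp (-2, -1) (.cp (-3, 0) 1 0
  false)))) (.rp (1, 0) (.mg (.rp (-1, -1) (.cp (-2, 0) 1 0 false)) (.rp (0, -1) (.cp (1, 0) 0 0
  false))))))) (.rp (1, -1) (.mg (.rp (1, 0) (.mg (.rp (2, 0) (.cp (2, 0) 0 0 false)) (.rp (1,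
  1) (.mg (.rp (1, 2) (.cp (1, -1) 0 1 true)) (.rp (1, -2) (.cp (1, 1) 0 0 true)))))) (.rp (-1,
  -1) (.mg (.rp (0, -1) (.mg (.rp (-2, -1) (.cp (-2, -1) 1 1 false)) (.rp (2, -1) (.cp (-1, -1)
  1 1 false)))) (.rp (-1, 1) (.mg (.rp (-1, 2) (.cp (-1, -1) 1 1 true)) (.rp (-1, -2) (.cp (-1,
  1) 1 0 true))))))))) (.rp (1, 0) (.mg (.rp (2, 0) (.mg (.rp (1, 1) (.cp (2, 0) 0 1 false))
  (.rp (1, -1) (.cp (2, 0) 0 0 false)))) (.rp (-2, 0) (.mg (.rp (-1, 1) (.cp (-2, 0) 1 1 false))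
  (.rp (-1, -1) (.cp (-2, 0) 1 0 false))))))))

def yT1 : Tr :=
  (.rp (0, -1) (.mg (.mg (.mg (.mg (.rp (1, -2) (.mg (.rp (0, -2) (.mg (.rp (0, -3) (.cp (0, -3)
  1 1 true)) (.rp (-1, -2) (.mg (.rp (2, -2) (.cp (-1, -2) 1 1 false)) (.rp (-2, -2) (.cp (1,
  -2) 0 1 false)))))) (.rp (1, -1) (.mg (.rp (2, -1) (.mg (.rp (-1, -1) (.cp (-1, -1) 1 1
  false)) (.rp (3, -1) (.cp (0, -1) 1 0 false)))) (.rp (1, 0) (.mg (.rp (1, 1) (.cp (1, -2) 0 1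
  true)) (.rp (1, -3) (.cp (1, 0) 0 0 true)))))))) (.rp (0, -2) (.mg (.rp (0, -3) (.mg (.rp (1,
  -2) (.cp (0, -3) 1 1 true)) (.rp (-1, -2) (.cp (0, -3) 0 1 true)))) (.rp (0, 1) (.mg (.rp (1,
  -1) (.cp (0, -2) 1 1 true)) (.rp (-1, -1) (.cp (0, -2) 0 1 true))))))) (.rp (0, -2) (.mg (.rp
  (0, -3) (.mg (.rp (1, -2) (.cp (0, -3) 1 1 true)) (.rp (-1, -2) (.cp (0, -3) 0 1 true)))) (.rp
  (0, 1) (.mg (.rp (1, 0) (.cp (0, 1) 1 0 true)) (.rp (-1, -1) (.cp (0, -2) 0 1 true))))))) (.rp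
  (1, 1) (.mg (.rp (0, 1) (.mg (.rp (0, 2) (.cp (0, 2) 1 0 true)) (.rp (-1, 1) (.mg (.rp (2, 1)
  (.cp (-1, 1) 1 0 false)) (.rp (-2, 1) (.cp (1, 1) 0 0 false)))))) (.rp (1, -1) (.mg (.rp (1,
  0) (.mg (.rp (1, -2) (.cp (1, -2) 0 1 true)) (.rp (1, 2) (.cp (1, -1) 0 1 true)))) (.rp (-1,
  -1) (.mg (.rp (2, -1) (.cp (-1, -1) 1 1 false)) (.rp (-2, -1) (.cp (1, -1) 0 1 false)))))))))
  (.rp (0, 1) (.mg (.rp (0, 2) (.mg (.rp (1, 1) (.cp (0, 2) 1 0 true)) (.rp (-1, 1) (.cp (0, 2)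
  0 0 true)))) (.rp (0, -2) (.mg (.rp (1, -1) (.cp (0, -2) 1 1 true)) (.rp (1, 0) (.cp (0, 1) 1
  0 true))))))))

def yT2 : Tr :=
  (.rp (0, -1) (.mg (.mg (.mg (.mg (.rp (-1, -2) (.mg (.rp (0, -2) (.mg (.rp (0, -3) (.cp (0,
  -3) 0 1 true)) (.rp (1, -2) (.mg (.rp (2, -2) (.cp (-1, -2) 1 1 false)) (.rp (-2, -2) (.cp (1,
  -2) 0 1 false)))))) (.rp (-1, -1) (.mg (.rp (1, -1) (.mg (.rp (2, -1) (.cp (-1, -1) 1 1
  false)) (.rp (-2, -1) (.cp (-2, -1) 1 0 false)))) (.rp (-1, 0) (.mg (.rp (-1, 1) (.cp (-1, -2)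
  1 1 true)) (.rp (-1, -3) (.cp (-1, 0) 1 0 true)))))))) (.rp (0, -2) (.mg (.rp (0, -3) (.mg
  (.rp (1, -2) (.cp (0, -3) 1 1 true)) (.rp (-1, -2) (.cp (0, -3) 0 1 true)))) (.rp (0, 1) (.mg
  (.rp (1, -1) (.cp (0, -2) 1 1 true)) (.rp (-1, 0) (.cp (0, 1) 0 0 true))))))) (.rp (0, -2)
  (.mg (.rp (0, -3) (.mg (.rp (1, -2) (.cp (0, -3) 1 1 true)) (.rp (-1, -2) (.cp (0, -3) 0 1
  true)))) (.rp (0, 1) (.mg (.rp (-1, -1) (.cp (0, -2) 0 1 true)) (.rp (-1, 0) (.cp (0, 1) 0 0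
  true))))))) (.rp (-1, 1) (.mg (.rp (0, 1) (.mg (.rp (0, 2) (.cp (0, 2) 0 0 true)) (.rp (1, 1)
  (.mg (.rp (2, 1) (.cp (-1, 1) 1 0 false)) (.rp (-2, 1) (.cp (1, 1) 0 0 false)))))) (.rp (-1,
  -1) (.mg (.rp (-1, 0) (.mg (.rp (-1, -2) (.cp (-1, -2) 1 1 true)) (.rp (-1, 2) (.cp (-1, -1) 1
  1 true)))) (.rp (1, -1) (.mg (.rp (2, -1) (.cp (-1, -1) 1 1 false)) (.rp (-2, -1) (.cp (1, -1)
  0 1 false))))))))) (.rp (0, 1) (.mg (.rp (0, 2) (.mg (.rp (1, 1) (.cp (0, 2) 1 0 true)) (.rp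
  (-1, 1) (.cp (0, 2) 0 0 true)))) (.rp (0, -2) (.mg (.rp (1, -1) (.cp (0, -2) 1 1 true)) (.rp
  (-1, -1) (.cp (0, -2) 0 1 true))))))))

def yT3 : Tr :=
  (.rp (-1, 0) (.mg (.mg (.mg (.mg (.rp (-2, 1) (.mg (.rp (-2, 0) (.mg (.rp (-3, 0) (.cp (-3, 0)
  1 1 false)) (.rp (-2, -1) (.mg (.rp (-2, 2) (.cp (-2, -1) 1 1 true)) (.rp (-2, -2) (.cp (-2,
  1) 1 0 true)))))) (.rp (-1, 1) (.mg (.rp (0, 1) (.mg (.rp (1, 1) (.cp (-2, 1) 1 0 false)) (.rp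
  (-3, 1) (.cp (0, 1) 0 0 false)))) (.rp (-1, 2) (.mg (.rp (-1, -1) (.cp (-1, -1) 1 1 true))
  (.rp (-1, 3) (.cp (-1, 0) 0 1 true)))))))) (.rp (-2, 0) (.mg (.rp (-3, 0) (.mg (.rp (-2, 1)
  (.cp (-3, 0) 1 1 false)) (.rp (-2, -1) (.cp (-3, 0) 1 0 false)))) (.rp (1, 0) (.mg (.rp (-1,
  1) (.cp (-2, 0) 1 1 false)) (.rp (0, 1) (.cp (1, 0) 0 1 false))))))) (.rp (-2, 0) (.mg (.rp
  (-3, 0) (.mg (.rp (-2, 1) (.cp (-3, 0) 1 1 false)) (.rp (-2, -1) (.cp (-3, 0) 1 0 false))))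
  (.rp (1, 0) (.mg (.rp (-1, -1) (.cp (-2, 0) 1 0 false)) (.rp (0, 1) (.cp (1, 0) 0 1
  false))))))) (.rp (1, 1) (.mg (.rp (1, 0) (.mg (.rp (2, 0) (.cp (2, 0) 0 1 false)) (.rp (1,
  -1) (.mg (.rp (1, 2) (.cp (1, -1) 0 1 true)) (.rp (1, -2) (.cp (1, 1) 0 0 true)))))) (.rp (-1,
  1) (.mg (.rp (0, 1) (.mg (.rp (-2, 1) (.cp (-2, 1) 1 0 false)) (.rp (2, 1) (.cp (-1, 1) 1 0
  false)))) (.rp (-1, -1) (.mg (.rp (-1, 2) (.cp (-1, -1) 1 1 true)) (.rp (-1, -2) (.cp (-1, 1)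
  1 0 true))))))))) (.rp (1, 0) (.mg (.rp (2, 0) (.mg (.rp (1, 1) (.cp (2, 0) 0 1 false)) (.rp
  (1, -1) (.cp (2, 0) 0 0 false)))) (.rp (-2, 0) (.mg (.rp (-1, 1) (.cp (-2, 0) 1 1 false)) (.rp
  (-1, -1) (.cp (-2, 0) 1 0 false))))))))

def yT4 : Tr :=
  (.rp (0, 1) (.mg (.mg (.mg (.mg (.rp (0, 2) (.mg (.rp (0, 3) (.mg (.rp (1, 2) (.cp (0, 3) 1 0
  true)) (.rp (-1, 1) (.cp (0, 0) 0 1 true)))) (.rp (0, -1) (.mg (.rp (1, 1) (.cp (0, 2) 1 0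
  true)) (.rp (-1, 0) (.cp (0, -1) 0 1 true)))))) (.rp (1, 1) (.mg (.rp (-1, 1) (.mg (.rp (2, 1)
  (.cp (-1, 1) 1 0 false)) (.rp (-2, 1) (.cp (1, 1) 0 0 false)))) (.rp (1, 0) (.mg (.rp (-1, 0)
  (.mg (.rp (2, 0) (.cp (-1, 0) 1 1 false)) (.rp (-2, 0) (.cp (1, 0) 0 1 false)))) (.rp (1, 2)
  (.mg (.rp (1, -1) (.cp (1, -1) 0 1 true)) (.rp (1, 3) (.cp (1, 0) 0 1 true))))))))) (.rp (0,
  2) (.mg (.rp (0, 3) (.mg (.rp (1, 2) (.cp (0, 3) 1 0 true)) (.rp (-1, 2) (.cp (0, 3) 0 0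
  true)))) (.rp (0, -1) (.mg (.rp (1, 0) (.cp (0, -1) 1 1 true)) (.rp (1, 1) (.cp (0, 2) 1 0
  true))))))) (.rp (0, 2) (.mg (.rp (0, 3) (.mg (.rp (1, 2) (.cp (0, 3) 1 0 true)) (.rp (-1, 2)
  (.cp (0, 3) 0 0 true)))) (.rp (0, -1) (.mg (.rp (1, 0) (.cp (0, -1) 1 1 true)) (.rp (-1, 0)
  (.cp (0, -1) 0 1 true))))))) (.rp (0, 2) (.mg (.rp (0, 3) (.mg (.rp (1, 1) (.cp (0, 0) 1 1
  true)) (.rp (-1, 1) (.cp (0, 0) 0 1 true)))) (.rp (0, -1) (.mg (.rp (1, 0) (.cp (0, -1) 1 1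
  true)) (.rp (-1, 0) (.cp (0, -1) 0 1 true))))))))

def yT5 : Tr :=
  (.rp (0, -1) (.mg (.mg (.mg (.mg (.rp (0, -2) (.mg (.rp (0, -3) (.mg (.rp (1, -2) (.cp (0, -3)
  1 1 true)) (.rp (-1, -2) (.cp (0, -3) 0 1 true)))) (.rp (0, 1) (.mg (.rp (1, -1) (.cp (0, -2)
  1 1 true)) (.rp (1, 0) (.cp (0, 1) 1 0 true)))))) (.rp (1, -1) (.mg (.rp (-1, -1) (.mg (.rp
  (2, -1) (.cp (-1, -1) 1 1 false)) (.rp (-2, -1) (.cp (1, -1) 0 1 false)))) (.rp (1, 0) (.mg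
  (.rp (-1, 0) (.mg (.rp (2, 0) (.cp (-1, 0) 1 0 false)) (.rp (-2, 0) (.cp (1, 0) 0 0 false))))
  (.rp (1, 1) (.mg (.rp (1, -2) (.cp (1, -2) 0 1 true)) (.rp (1, 2) (.cp (1, -1) 0 1
  true))))))))) (.rp (0, -2) (.mg (.rp (0, -3) (.mg (.rp (1, -2) (.cp (0, -3) 1 1 true)) (.rp
  (-1, -2) (.cp (0, -3) 0 1 true)))) (.rp (0, 1) (.mg (.rp (1, -1) (.cp (0, -2) 1 1 true)) (.rp
  (-1, -1) (.cp (0, -2) 0 1 true))))))) (.rp (0, -2) (.mg (.rp (0, -3) (.mg (.rp (1, -2) (.cp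
  (0, -3) 1 1 true)) (.rp (-1, -2) (.cp (0, -3) 0 1 true)))) (.rp (0, 1) (.mg (.rp (1, 0) (.cp
  (0, 1) 1 0 true)) (.rp (-1, -1) (.cp (0, -2) 0 1 true))))))) (.rp (0, 1) (.mg (.rp (0, -2)
  (.mg (.rp (1, -1) (.cp (0, -2) 1 1 true)) (.rp (-1, -1) (.cp (0, -2) 0 1 true)))) (.rp (0, 2)
  (.mg (.rp (1, 0) (.cp (0, -1) 1 1 true)) (.rp (1, 1) (.cp (0, 2) 1 0 true))))))))

def yT6 : Tr :=
  (.rp (-1, 0) (.mg (.mg (.mg (.mg (.rp (-2, 0) (.mg (.rp (-3, 0) (.mg (.rp (-2, 1) (.cp (-3, 0)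
  1 1 false)) (.rp (-2, -1) (.cp (-3, 0) 1 0 false)))) (.rp (1, 0) (.mg (.rp (-1, 1) (.cp (-2,
  0) 1 1 false)) (.rp (-1, -1) (.cp (-2, 0) 1 0 false)))))) (.rp (-1, -1) (.mg (.rp (-1, 1) (.mg
  (.rp (-1, 2) (.cp (-1, -1) 1 1 true)) (.rp (-1, -2) (.cp (-1, 1) 1 0 true)))) (.rp (0, -1)
  (.mg (.rp (1, -1) (.mg (.rp (-2, -1) (.cp (-2, -1) 1 1 false)) (.rp (2, -1) (.cp (-1, -1) 1 1
  false)))) (.rp (0, 1) (.mg (.rp (0, -2) (.cp (0, -2) 0 1 true)) (.rp (0, 2) (.cp (0, -1) 0 1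
  true))))))))) (.rp (-2, 0) (.mg (.rp (-3, 0) (.mg (.rp (-2, 1) (.cp (-3, 0) 1 1 false)) (.rp
  (-2, -1) (.cp (-3, 0) 1 0 false)))) (.rp (1, 0) (.mg (.rp (-1, -1) (.cp (-2, 0) 1 0 false))
  (.rp (0, 1) (.cp (1, 0) 0 1 false))))))) (.rp (-2, 0) (.mg (.rp (-3, 0) (.mg (.rp (-2, 1) (.cp
  (-3, 0) 1 1 false)) (.rp (-2, -1) (.cp (-3, 0) 1 0 false)))) (.rp (1, 0) (.mg (.rp (-1, 1)
  (.cp (-2, 0) 1 1 false)) (.rp (0, 1) (.cp (1, 0) 0 1 false))))))) (.rp (-2, 0) (.mg (.rp (-3,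
  0) (.mg (.rp (-2, 1) (.cp (-3, 0) 1 1 false)) (.rp (-1, 1) (.cp (0, 0) 0 1 false)))) (.rp (1,
  0) (.mg (.rp (-1, -1) (.cp (-2, 0) 1 0 false)) (.rp (0, 1) (.cp (1, 0) 0 1 false))))))))

def yT7 : Tr :=
  (.rp (-1, 0) (.mg (.mg (.mg (.mg (.rp (-2, 0) (.mg (.rp (-3, 0) (.mg (.rp (-2, 1) (.cp (-3, 0)
  1 1 false)) (.rp (-2, -1) (.cp (-3, 0) 1 0 false)))) (.rp (1, 0) (.mg (.rp (-1, 1) (.cp (-2,
  0) 1 1 false)) (.rp (-1, -1) (.cp (-2, 0) 1 0 false)))))) (.rp (-1, 1) (.mg (.rp (-1, -1) (.mg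
  (.rp (-1, 2) (.cp (-1, -1) 1 1 true)) (.rp (-1, -2) (.cp (-1, 1) 1 0 true)))) (.rp (0, 1) (.mg
  (.rp (-2, 1) (.mg (.rp (1, 1) (.cp (-2, 1) 1 0 false)) (.rp (-3, 1) (.cp (0, 1) 0 0 false))))
  (.rp (0, 2) (.mg (.rp (0, -1) (.cp (0, -1) 0 1 true)) (.rp (0, 3) (.cp (0, 0) 0 1
  true))))))))) (.rp (-2, 0) (.mg (.rp (-3, 0) (.mg (.rp (-2, 1) (.cp (-3, 0) 1 1 false)) (.rp
  (-2, -1) (.cp (-3, 0) 1 0 false)))) (.rp (1, 0) (.mg (.rp (-1, -1) (.cp (-2, 0) 1 0 false))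
  (.rp (0, 1) (.cp (1, 0) 0 1 false))))))) (.rp (-2, 0) (.mg (.rp (-3, 0) (.mg (.rp (-2, 1) (.cp
  (-3, 0) 1 1 false)) (.rp (-2, -1) (.cp (-3, 0) 1 0 false)))) (.rp (1, 0) (.mg (.rp (-1, 1)
  (.cp (-2, 0) 1 1 false)) (.rp (0, 1) (.cp (1, 0) 0 1 false))))))) (.rp (-2, 0) (.mg (.rp (-3,
  0) (.mg (.rp (-2, -1) (.cp (-3, 0) 1 0 false)) (.rp (-1, 1) (.cp (0, 0) 0 1 false)))) (.rp (1,
  0) (.mg (.rp (-1, -1) (.cp (-2, 0) 1 0 false)) (.rp (0, 1) (.cp (1, 0) 0 1 false))))))))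

def yT : Tr :=
  (.mg (.mg (.mg (.mg (.mg (.mg (.mg yT0 yT1) yT2) yT3) yT4) yT5) yT6) yT7)

/-- Maker wins the game for the Y-pentomino -/
theorem y_wins : MakerWins yPentomino ∅ := by
  rw [← yL_eq]
  exact wins_of_tree yL yT (by decide +kernel)

/-- the classification, given that Snaky is a winner -/
theorem classification (hS : MakerWins snaky ∅) {P : Finset Cell} (hP : IsPolyomino P) :
    (MakerWins P ∅ ↔ ∃ T, (IsCopyOf snaky T ∨ IsCopyOf yPentomino T) ∧ P ⊆ T) ∧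
    (BreakerPrevents P ∅ ↔ ¬ ∃ T, (IsCopyOf snaky T ∨ IsCopyOf yPentomino T) ∧ P ⊆ T) := by
  have h1 : (∃ T, (IsCopyOf snaky T ∨ IsCopyOf yPentomino T) ∧ P ⊆ T) → MakerWins P ∅ := by
    rintro ⟨T, hT | hT, hPT⟩
    · obtain ⟨V, hV, hV'⟩ := IsCopyOf.sub hPT hT.symm
      exact hS.of_sub hV hV'
    · obtain ⟨V, hV, hV'⟩ := IsCopyOf.sub hPT hT.symm
      exact y_wins.of_sub hV hV'
  have h2 : (¬ ∃ T, (IsCopyOf snaky T ∨ IsCopyOf yPentomino T) ∧ P ⊆ T) →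
      BreakerPrevents P ∅ := by
    intro hn
    rcases dichotomy hP with ⟨g, hg, hgP⟩ | ⟨e, he, V, hV, hV'⟩
    · exfalso
      have h := List.all_eq_true.1 winners_ok g hg
      rw [Bool.or_eq_true] at h
      rcases h with h | h
      · obtain ⟨V, hV, hV'⟩ := embB_sound h
        obtain ⟨T, hT, hPT⟩ := IsCopyOf.sup hV (hV'.symm.trans hgP)
        exact hn ⟨T, Or.inl (snakyL_eq ▸ hT), hPT⟩
      · obtain ⟨V, hV, hV'⟩ := embB_sound h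
        obtain ⟨T, hT, hPT⟩ := IsCopyOf.sup hV (hV'.symm.trans hgP)
        exact hn ⟨T, Or.inr (yL_eq ▸ hT), hPT⟩
    · exact (losers_lose he).of_sub hV hV'
  exact ⟨⟨fun h => by_contra fun hn => not_both h (h2 hn), h1⟩,
    ⟨fun h hT => not_both (h1 hT) h, h2⟩⟩

/-- a domino pairing that works when the cells with `17 ∣ x - 4 y` are forbidden to Maker -/
def pp17 : PP := ⟨1, -4, 17, [(0, 0), (0, 1), (0, 1), (0, 1), (1, 0), (-1, 0), (0, -1), (0, -1),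
  (1, 0), (-1, 0), (0, 1), (0, 1), (1, 0), (-1, 0), (0, -1), (0, -1), (0, -1)], true⟩

theorem prevents17 : BreakerPrevents snaky {c : Cell | (17 : ℤ) ∣ c.1 - 4 * c.2} := by
  have h := pp17.prevents snakyL (by decide +kernel)
  rw [snakyL_eq] at h
  convert h using 1
  ext c
  simp only [PP.F, pp17, PP.lin, Set.mem_ofPred_eq, true_and]
  rw [show (1 : ℤ) * c.1 + -4 * c.2 = c.1 - 4 * c.2 by ring]
  rfl

end Vale.Agent.N062
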