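import Vale.Agent.P062.MathlibUsed
import Mathlib.Combinatorics.SimpleGraph.Connectivity.Connected

/-! # Harary's achievement game for a finite set of cells `P`

A play is a pair of sequences: `m n` is Maker's claim number `n`, and `b n` is Breaker's claim
number `n`, made right after `m n` (Maker moves first). -/

namespace Vale.Agent.N062

/-- A cell of the square grid, indexed by its lower-left corner. -/
abbrev Cell := ℤ × ℤ

/-- The hexomino Snaky. -/
def snaky : Finset Cell := {(0, 0), (1, 0), (2, 0), (3, 0), (3, 1), (4, 1)}

/-- The Y-pentomino. -/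
def yPentomino : Finset Cell := {(0, 0), (1, 0), (2, 0), (3, 0), (1, 1)}

/-- `R` acts on `ℤ²` as one of the eight signed permutation matrices:
`(x, y) ↦ (± x, ± y)` or `(x, y) ↦ (± y, ± x)`. -/
def IsSignedPerm (R : Cell → Cell) : Prop :=
  ∃ a b : ℤ, (a = 1 ∨ a = -1) ∧ (b = 1 ∨ b = -1) ∧
    ((∀ p : Cell, R p = (a * p.1, b * p.2)) ∨ (∀ p : Cell, R p = (a * p.2, b * p.1)))

/-- `T` is an allowed copy `t + R(P)` of `P`. -/
def IsCopyOf (P T : Finset Cell) : Prop :=
  ∃ (t : Cell) (R : Cell → Cell), IsSignedPerm R ∧ T = P.image (fun p => t + R p)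

/-- Maker's claim number `n` is a previously unclaimed cell outside `F`. -/
def MakerLegal (F : Set Cell) (m b : ℕ → Cell) (n : ℕ) : Prop :=
  m n ∉ F ∧ ∀ k < n, m n ≠ m k ∧ m n ≠ b k

/-- Breaker's claim number `n` is a previously unclaimed cell. -/
def BreakerLegal (m b : ℕ → Cell) (n : ℕ) : Prop :=
  (∀ k ≤ n, b n ≠ m k) ∧ ∀ k < n, b n ≠ b k

/-- After his claim number `n` Maker owns every cell of some allowed copy of `P`. -/
def Owns (P : Finset Cell) (m : ℕ → Cell) (n : ℕ) : Prop :=
  ∃ T : Finset Cell, IsCopyOf P T ∧ ∀ c ∈ T, ∃ k ≤ n, m k = c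

/-- Maker has a winning strategy for `P` on `ℤ²` when the cells of `F` are forbidden to him
(`F = ∅` is the game on the empty board): a rule `σ` that gives his next claim from the list of
Breaker's claims so far such that, against every legal play of Breaker, Maker owns a copy of `P`
after finitely many legal claims. -/
def MakerWins (P : Finset Cell) (F : Set Cell) : Prop :=
  ∃ σ : List Cell → Cell, ∀ m b : ℕ → Cell, (∀ n, m n = σ ((List.range n).map b)) →
    (∀ n, BreakerLegal m b n) → ∃ n, (∀ k ≤ n, MakerLegal F m b k) ∧ Owns P m n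

/-- Breaker has a strategy that prevents Maker from ever owning a copy of `P`: a rule `τ` that
gives his next claim from the list of Maker's claims so far such that, as long as Maker's claims
are legal, Breaker's claims are legal and Maker owns no copy of `P`. -/
def BreakerPrevents (P : Finset Cell) (F : Set Cell) : Prop :=
  ∃ τ : List Cell → Cell, ∀ m b : ℕ → Cell, (∀ n, b n = τ ((List.range (n + 1)).map m)) →
    ∀ n, (∀ k ≤ n, MakerLegal F m b k) → BreakerLegal m b n ∧ ¬ Owns P m n

/-- `P` is a polyomino: a nonempty finite set of cells that is connected when two cells are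
joined if they share a side. -/
def IsPolyomino (P : Finset Cell) : Prop :=
  ((SimpleGraph.fromRel fun c d : Cell => |c.1 - d.1| + |c.2 - d.2| = 1).induce
    (P : Set Cell)).Connected

end Vale.Agent.N062
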