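import Vale.Agent.N062.Defs

/-! # The achievement game for `P`: copies, strategies, pairings, proof trees -/

namespace Vale.Agent.N062

/-- the signed permutation with signs `a`, `b`, with (`s = true`) or without a swap -/
def rot (a b : ℤ) (s : Bool) (p : Cell) : Cell :=
  if s then (a * p.2, b * p.1) else (a * p.1, b * p.2)

theorem signed_iff {R : Cell → Cell} : IsSignedPerm R ↔
    ∃ a b : ℤ, ∃ s : Bool, (a = 1 ∨ a = -1) ∧ (b = 1 ∨ b = -1) ∧ R = rot a b s := by
  constructor
  · rintro ⟨a, b, ha, hb, h | h⟩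
    · exact ⟨a, b, false, ha, hb, funext fun p => by simp [rot, h p]⟩
    · exact ⟨a, b, true, ha, hb, funext fun p => by simp [rot, h p]⟩
  · rintro ⟨a, b, s, ha, hb, rfl⟩
    cases s
    · exact ⟨a, b, ha, hb, Or.inl fun p => by simp [rot]⟩
    · exact ⟨a, b, ha, hb, Or.inr fun p => by simp [rot]⟩

theorem signed_add {R : Cell → Cell} (h : IsSignedPerm R) (p q : Cell) :
    R (p + q) = R p + R q := by
  obtain ⟨a, b, s, -, -, rfl⟩ := signed_iff.1 h
  cases s <;> simp [rot, mul_add]

theorem signed_comp {R S : Cell → Cell} (h : IsSignedPerm R) (h' : IsSignedPerm S) :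
    IsSignedPerm (fun p => R (S p)) := by
  obtain ⟨a, b, s, ha, hb, rfl⟩ := signed_iff.1 h
  obtain ⟨a', b', s', ha', hb', rfl⟩ := signed_iff.1 h'
  have e : ∀ {x y : ℤ}, (x = 1 ∨ x = -1) → (y = 1 ∨ y = -1) → (x * y = 1 ∨ x * y = -1) := by
    rintro x y (rfl | rfl) (rfl | rfl) <;> simp
  cases s <;> cases s'
  · exact ⟨a * a', b * b', e ha ha', e hb hb', Or.inl fun p => by simp [rot, mul_assoc]⟩
  · exact ⟨a * a', b * b', e ha ha', e hb hb', Or.inr fun p => by simp [rot, mul_assoc]⟩
  · exact ⟨a * b', b * a', e ha hb', e hb ha', Or.inr fun p => by simp [rot, mul_assoc]⟩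
  · exact ⟨a * b', b * a', e ha hb', e hb ha', Or.inl fun p => by simp [rot, mul_assoc]⟩

theorem signed_inv {R : Cell → Cell} (h : IsSignedPerm R) :
    ∃ S : Cell → Cell, IsSignedPerm S ∧ (∀ p, S (R p) = p) ∧ ∀ p, R (S p) = p := by
  obtain ⟨a, b, s, ha, hb, rfl⟩ := signed_iff.1 h
  cases s
  · refine ⟨rot a b false, signed_iff.2 ⟨a, b, false, ha, hb, rfl⟩, ?_, ?_⟩ <;>
      rcases ha with rfl | rfl <;> rcases hb with rfl | rfl <;> intro p <;> simp [rot]
  · refine ⟨rot b a true, signed_iff.2 ⟨b, a, true, hb, ha, rfl⟩, ?_, ?_⟩ <;>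
      rcases ha with rfl | rfl <;> rcases hb with rfl | rfl <;> intro p <;> simp [rot]

theorem IsCopyOf.trans {P T U : Finset Cell} (h : IsCopyOf P T) (h' : IsCopyOf T U) :
    IsCopyOf P U := by
  obtain ⟨t, R, hR, rfl⟩ := h
  obtain ⟨t', R', hR', rfl⟩ := h'
  refine ⟨t' + R' t, _, signed_comp hR' hR, ?_⟩
  rw [Finset.image_image]
  refine Finset.image_congr fun p _ => ?_
  simp [signed_add hR', add_assoc]

theorem IsCopyOf.symm {P T : Finset Cell} (h : IsCopyOf P T) : IsCopyOf T P := by
  obtain ⟨t, R, hR, rfl⟩ := h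
  obtain ⟨S, hS, h1, -⟩ := signed_inv hR
  refine ⟨-S t, S, hS, ?_⟩
  rw [Finset.image_image]
  have : ∀ p ∈ P, ((fun p => -S t + S p) ∘ fun p => t + R p) p = id p := by
    intro p _
    simp [signed_add hS, h1]
  rw [Finset.image_congr this, Finset.image_id]

theorem IsCopyOf.sub {P T U : Finset Cell} (hP : P ⊆ T) (h : IsCopyOf T U) :
    ∃ V ⊆ U, IsCopyOf P V := by
  obtain ⟨t, R, hR, rfl⟩ := h
  exact ⟨_, Finset.image_subset_image hP, t, R, hR, rfl⟩

theorem IsCopyOf.sup {V S P : Finset Cell} (hV : V ⊆ S) (h : IsCopyOf V P) :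
    ∃ T, IsCopyOf S T ∧ P ⊆ T := by
  obtain ⟨t, R, hR, rfl⟩ := h
  exact ⟨_, ⟨t, R, hR, rfl⟩, Finset.image_subset_image hV⟩

theorem IsCopyOf.card {P T : Finset Cell} (h : IsCopyOf P T) : T.card = P.card := by
  obtain ⟨t, R, hR, rfl⟩ := h
  obtain ⟨S, -, h1, -⟩ := signed_inv hR
  refine Finset.card_image_of_injective _ fun p q hpq => ?_
  have : R p = R q := add_left_cancel hpq
  rw [← h1 p, this, h1]

/-- if `S` contains a copy of `P`, whoever owns a copy of `S` owns a copy of `P` -/
theorem Owns.of_sub {P S V : Finset Cell} (hV : V ⊆ S) (hP : IsCopyOf P V) {m : ℕ → Cell} {n : ℕ}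
    (h : Owns S m n) : Owns P m n := by
  obtain ⟨U, hU, h⟩ := h
  obtain ⟨W, hW, hVW⟩ := IsCopyOf.sub hV hU
  exact ⟨W, hP.trans hVW, fun c hc => h c (hW hc)⟩

theorem MakerWins.of_sub {P S V : Finset Cell} {F : Set Cell} (hV : V ⊆ S) (hP : IsCopyOf P V)
    (h : MakerWins S F) : MakerWins P F := by
  obtain ⟨σ, h⟩ := h
  refine ⟨σ, fun m b h1 h2 => ?_⟩
  obtain ⟨n, h3, h4⟩ := h m b h1 h2
  exact ⟨n, h3, h4.of_sub hV hP⟩

theorem BreakerPrevents.of_sub {P S V : Finset Cell} {F : Set Cell} (hV : V ⊆ S)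
    (hP : IsCopyOf P V) (h : BreakerPrevents P F) : BreakerPrevents S F := by
  obtain ⟨τ, h⟩ := h
  exact ⟨τ, fun m b h1 n h2 => ⟨(h m b h1 n h2).1, fun h3 => (h m b h1 n h2).2 (h3.of_sub hV hP)⟩⟩

/-- a cell that is not in the list -/
noncomputable def fresh (l : List Cell) : Cell :=
  Classical.choose (Infinite.exists_notMem_finset l.toFinset)

theorem fresh_notMem (l : List Cell) : fresh l ∉ l := by
  have := Classical.choose_spec (Infinite.exists_notMem_finset l.toFinset)
  rwa [List.mem_toFinset] at this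

/-- `y` if it is unclaimed, else some unclaimed cell -/
noncomputable def pick (y : Cell) (ml bl : List Cell) : Cell :=
  if y ∉ ml ∧ y ∉ bl then y else fresh (ml ++ bl)

theorem pick_notMem (y : Cell) (ml bl : List Cell) : pick y ml bl ∉ ml ∧ pick y ml bl ∉ bl := by
  unfold pick
  split_ifs with h
  · exact h
  · have := fresh_notMem (ml ++ bl)
    rwa [List.mem_append, not_or] at this

theorem mem_hist {f : ℕ → Cell} {n : ℕ} {c : Cell} :
    c ∈ (List.range n).map f ↔ ∃ k < n, f k = c := by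
  simp

theorem legal_of_pick {m b : ℕ → Cell} {n : ℕ} {y : Cell}
    (h : b n = pick y ((List.range (n + 1)).map m) ((List.range n).map b)) :
    BreakerLegal m b n := by
  have h1 := pick_notMem y ((List.range (n + 1)).map m) ((List.range n).map b)
  rw [← h, mem_hist, mem_hist] at h1
  exact ⟨fun k hk e => h1.1 ⟨k, by omega, e.symm⟩, fun k hk e => h1.2 ⟨k, hk, e.symm⟩⟩

/-- the two players cannot both have their strategy -/
theorem not_both {P : Finset Cell} {F : Set Cell} (hM : MakerWins P F)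
    (hB : BreakerPrevents P F) : False := by
  obtain ⟨σ, hσ⟩ := hM
  obtain ⟨τ, hτ⟩ := hB
  let st : ℕ → List Cell × List Cell := fun n => Nat.rec ([], [])
    (fun _ s => (s.1 ++ [σ s.2], s.2 ++ [pick (τ (s.1 ++ [σ s.2])) (s.1 ++ [σ s.2]) s.2])) n
  let m : ℕ → Cell := fun n => σ (st n).2
  let b : ℕ → Cell := fun n => pick (τ ((st n).1 ++ [m n])) ((st n).1 ++ [m n]) (st n).2
  have hst : ∀ n, (st n).1 = (List.range n).map m ∧ (st n).2 = (List.range n).map b := by
    intro n
    induction n with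
    | zero => exact ⟨rfl, rfl⟩
    | succ n ih =>
      rw [List.range_succ, List.map_append, List.map_append, ← ih.1, ← ih.2]
      exact ⟨rfl, rfl⟩
  have hb : ∀ n, b n = pick (τ ((List.range (n + 1)).map m)) ((List.range (n + 1)).map m)
      ((List.range n).map b) := by
    intro n
    rw [List.range_succ, List.map_append, ← (hst n).1, ← (hst n).2]
    rfl
  obtain ⟨n, h1, h2⟩ := hσ m b (fun n => by rw [← (hst n).2]) (fun n => legal_of_pick (hb n))
  let b' : ℕ → Cell := fun n => τ ((List.range (n + 1)).map m)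
  have key : ∀ k ≤ n, (∀ j < k, b' j = b j) → ∀ j ≤ k, MakerLegal F m b' j := by
    intro k hk ih j hj
    refine ⟨(h1 j (by omega)).1, fun i hi => ?_⟩
    rw [ih i (by omega)]
    exact (h1 j (by omega)).2 i hi
  have heq : ∀ k ≤ n, b' k = b k := by
    intro k
    induction k using Nat.strong_induction_on with
    | _ k ih =>
      intro hk
      have ih' : ∀ j < k, b' j = b j := fun j hj => ih j hj (by omega)
      have h3 := (hτ m b' (fun _ => rfl) k (key k hk ih')).1
      rw [hb k, pick, if_pos]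
      refine ⟨fun h => ?_, fun h => ?_⟩
      · obtain ⟨i, hi, e⟩ := mem_hist.1 h
        exact h3.1 i (by omega) e.symm
      · obtain ⟨i, hi, e⟩ := mem_hist.1 h
        exact h3.2 i hi (by rw [ih' i hi]; exact e.symm)
  exact (hτ m b' (fun _ => rfl) n (key n le_rfl fun j hj => heq j hj.le)).2 h2

/-- Breaker can recompute his own earlier claims from Maker's claims -/
theorem exists_tau (G : List Cell → List Cell → Cell) : ∃ τ : List Cell → Cell,
    ∀ m b : ℕ → Cell, (∀ n, b n = τ ((List.range (n + 1)).map m)) →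
      ∀ n, b n = G ((List.range (n + 1)).map m) ((List.range n).map b) := by
  let bl : List Cell → List Cell := fun r => List.rec []
    (fun x r ih => ih ++ [G (x :: r).reverse ih]) r
  refine ⟨fun l => G l (bl l.reverse.tail), fun m b h => ?_⟩
  have e : ∀ n, ((List.range (n + 1)).map m).reverse = m n :: ((List.range n).map m).reverse := by
    intro n
    simp [List.range_succ]
  have key : ∀ n, bl ((List.range n).map m).reverse = (List.range n).map b := by
    intro n
    induction n with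
    | zero => rfl
    | succ n ih =>
      have h1 := h n
      simp only [e, List.tail_cons] at h1
      rw [e, List.range_succ, List.map_append, ← ih, List.map_singleton, h1]
      change bl _ ++ [G (m n :: ((List.range n).map m).reverse).reverse _] = _
      rw [← e, List.reverse_reverse]
  intro n
  have h1 := h n
  simp only [e, List.tail_cons] at h1
  rw [h1, key]

/-- a pairing strategy -/
theorem prevents_of_pairing {P : Finset Cell} {F : Set Cell} (π : Cell → Cell)
    (hπ : ∀ c, π (π c) = c)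
    (hP : ∀ T, IsCopyOf P T → (∃ c ∈ T, c ∈ F) ∨ ∃ c ∈ T, π c ∈ T ∧ π c ≠ c) :
    BreakerPrevents P F := by
  obtain ⟨τ, hτ⟩ := exists_tau fun ml bl => pick (π (ml.getLastD (0, 0))) ml bl
  refine ⟨τ, fun m b h n hn => ?_⟩
  have hb : ∀ n, b n = pick (π (m n)) ((List.range (n + 1)).map m) ((List.range n).map b) := by
    intro n
    rw [hτ m b h n]
    congr 2
    simp [List.range_succ]
  have inv : ∀ k ≤ n, π (m k) = m k ∨ ∃ j ≤ k, b j = π (m k) := by
    intro k
    induction k using Nat.strong_induction_on with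
    | _ k ih =>
      intro hk
      by_cases h1 : π (m k) ∈ (List.range (k + 1)).map m
      · obtain ⟨i, hi, e⟩ := mem_hist.1 h1
        rcases Nat.lt_succ_iff_lt_or_eq.1 hi with hi | rfl
        · exfalso
          have e2 : π (m i) = m k := by rw [e, hπ]
          rcases ih i hi (by omega) with h2 | ⟨j, hj, h2⟩
          · exact ((hn k hk).2 i hi).1 (by rw [← e2, h2])
          · exact ((hn k hk).2 j (by omega)).2 (by rw [h2, e2])
        · exact Or.inl e.symm
      · by_cases h2 : π (m k) ∈ (List.range k).map b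
        · obtain ⟨j, hj, e⟩ := mem_hist.1 h2
          exact Or.inr ⟨j, hj.le, e⟩
        · exact Or.inr ⟨k, le_rfl, by rw [hb k, pick, if_pos ⟨h1, h2⟩]⟩
  refine ⟨legal_of_pick (hb n), ?_⟩
  rintro ⟨T, hT, hown⟩
  have aux : ∀ i j, i < j → j ≤ n → π (m i) = m j → False := by
    intro i j hij hj e
    rcases inv i (by omega) with h2 | ⟨k, hk, h2⟩
    · exact ((hn j hj).2 i hij).1 (by rw [← e, h2])
    · exact ((hn j hj).2 k (by omega)).2 (by rw [h2, e])
  rcases hP T hT with ⟨c, hc, hF⟩ | ⟨c, hc, hc', hne⟩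
  · obtain ⟨k, hk, rfl⟩ := hown c hc
    exact (hn k hk).1 hF
  · obtain ⟨i, hi, rfl⟩ := hown c hc
    obtain ⟨j, hj, e⟩ := hown _ hc'
    rcases lt_trichotomy i j with h1 | rfl | h1
    · exact aux i j h1 hj e.symm
    · exact hne e.symm
    · exact aux j i h1 hi (by rw [e, hπ])

/-- Maker, to move at the position with Maker cells `M` and Breaker cells `B`, can force a win. -/
inductive MW (P : Finset Cell) : Finset Cell → Finset Cell → Prop
  | win {M B : Finset Cell} (x : Cell) (T : Finset Cell) (hM : x ∉ M) (hB : x ∉ B)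
      (hT : IsCopyOf P T) (hs : T ⊆ insert x M) : MW P M B
  | step {M B : Finset Cell} (x : Cell) (hM : x ∉ M) (hB : x ∉ B)
      (h : ∀ y : Cell, y ∉ insert x M → y ∉ B → MW P (insert x M) (insert y B)) : MW P M B

/-- strategy form relative to a position -/
def StratWin (P M B : Finset Cell) (σ : List Cell → Cell) : Prop :=
  ∀ m b : ℕ → Cell, (∀ n, m n = σ ((List.range n).map b)) →
    (∀ n, b n ∉ M ∧ b n ∉ B ∧ BreakerLegal m b n) →
    ∃ n : ℕ, (∀ k ≤ n, m k ∉ M ∧ m k ∉ B ∧ MakerLegal ∅ m b k) ∧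
      ∃ T : Finset Cell, IsCopyOf P T ∧ ∀ c ∈ T, c ∈ M ∨ ∃ k ≤ n, m k = c

theorem exists_strat {P M B : Finset Cell} (h : MW P M B) : ∃ σ, StratWin P M B σ := by
  induction h with
  | @win M B x T hM hB hT hs =>
    refine ⟨fun _ => x, fun m b hm _ => ⟨0, ?_, T, hT, ?_⟩⟩
    · intro k hk
      rw [hm k]
      exact ⟨hM, hB, id, fun j hj => by omega⟩
    · intro c hc
      rcases Finset.mem_insert.1 (hs hc) with h | h
      · exact Or.inr ⟨0, le_rfl, by rw [hm 0, h]⟩
      · exact Or.inl h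
  | @step M B x hM hB h ih =>
    have ih' : ∀ y : Cell, ∃ σ : List Cell → Cell, (y ∉ insert x M → y ∉ B →
        StratWin P (insert x M) (insert y B) σ) := by
      intro y
      by_cases h1 : y ∉ insert x M
      · by_cases h2 : y ∉ B
        · obtain ⟨σ, hσ⟩ := ih y h1 h2
          exact ⟨σ, fun _ _ => hσ⟩
        · exact ⟨fun _ => x, fun _ h => absurd h h2⟩
      · exact ⟨fun _ => x, fun h => absurd h h1⟩
    choose G hG using ih'
    refine ⟨fun l => List.casesOn l x fun y l' => G y l', fun m b hm hb => ?_⟩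
    have h0 : m 0 = x := hm 0
    have hsucc : ∀ n, m (n + 1) = G (b 0) ((List.range n).map fun k => b (k + 1)) := by
      intro n
      rw [hm (n + 1), List.range_succ_eq_map, List.map_cons, List.map_map]
      rfl
    have hx : ∀ n, b n ∉ insert x M := by
      intro n
      rw [Finset.mem_insert, not_or, ← h0]
      exact ⟨(hb n).2.2.1 0 (Nat.zero_le _), (hb n).1⟩
    obtain ⟨n, hn1, T, hT, hn2⟩ := hG (b 0) (hx 0) (hb 0).2.1 (fun k => m (k + 1))
      (fun k => b (k + 1)) hsucc (by
        intro n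
        have hn := hb (n + 1)
        refine ⟨hx _, ?_, fun k hk => hn.2.2.1 (k + 1) (by omega),
          fun k hk => hn.2.2.2 (k + 1) (by omega)⟩
        rw [Finset.mem_insert, not_or]
        exact ⟨hn.2.2.2 0 (Nat.succ_pos _), hn.2.1⟩)
    refine ⟨n + 1, ?_, T, hT, ?_⟩
    · intro k hk
      rcases k with _ | k
      · rw [h0]
        exact ⟨hM, hB, id, fun j hj => by omega⟩
      · have hk' := hn1 k (by omega)
        simp only [Finset.mem_insert, not_or] at hk'
        refine ⟨hk'.1.2, hk'.2.1.2, id, fun j hj => ?_⟩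
        rcases j with _ | j
        · rw [h0]
          exact ⟨hk'.1.1, hk'.2.1.1⟩
        · exact hk'.2.2.2 j (by omega)
    · intro c hc
      rcases hn2 c hc with h | ⟨k, hk, hk2⟩
      · rcases Finset.mem_insert.1 h with h | h
        · exact Or.inr ⟨0, Nat.zero_le _, by rw [h0, h]⟩
        · exact Or.inl h
      · exact Or.inr ⟨k + 1, by omega, hk2⟩

theorem wins_of_MW {P : Finset Cell} (h : MW P ∅ ∅) : MakerWins P ∅ := by
  obtain ⟨σ, hσ⟩ := exists_strat h
  refine ⟨σ, fun m b hm hb => ?_⟩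
  obtain ⟨n, hn, T, hT, h2⟩ := hσ m b hm (fun n => ⟨by simp, by simp, hb n⟩)
  exact ⟨n, fun k hk => (hn k hk).2.2, T, hT, fun c hc => (h2 c hc).resolve_left (by simp)⟩

/-- Breaker is to move, Maker owns `C`, Breaker owns no cell of `W`, Breaker's next claim avoids
`I`: Maker wins. -/
def Part (P : Finset Cell) (C W I : List Cell) : Prop :=
  ∀ M B : Finset Cell, (∀ c ∈ C, c ∈ M) → (∀ c ∈ W, c ∉ B) →
    ∀ y : Cell, y ∉ M → y ∉ B → y ∉ I → MW P M (insert y B)

/-- proof trees -/
inductive Tr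
  | cp (t : Cell) (a b : ℤ) (s : Bool) : Tr
  | rp (x : Cell) (u : Tr) : Tr
  | mg (u v : Tr) : Tr

/-- the situation proved by a tree -/
def Tr.ev (l : List Cell) : Tr → List Cell × List Cell × List Cell
  | .cp t a b s => (l.map fun p => t + rot (if a = 1 then 1 else -1) (if b = 1 then 1 else -1) s p,
      [], [])
  | .rp x u =>
      let r := u.ev l
      ((r.1 ∪ r.2.2).filter (· ≠ x), r.2.1.insert x, r.2.1.insert x)
  | .mg u v =>
      let r := u.ev l
      let r' := v.ev l
      (r.1 ∪ r'.1, r.2.1 ∪ r'.2.1, r.2.2 ∩ r'.2.2)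

theorem Tr.sound (l : List Cell) (u : Tr) :
    Part l.toFinset (u.ev l).1 (u.ev l).2.1 (u.ev l).2.2 := by
  induction u with
  | cp t a b s =>
    intro M B h1 _ y _ _ _
    obtain ⟨z, hz⟩ := Infinite.exists_notMem_finset (M ∪ insert y B)
    rw [Finset.mem_union, not_or] at hz
    refine MW.win z _ hz.1 hz.2 ⟨t, _, signed_iff.2 ⟨if a = 1 then 1 else -1,
      if b = 1 then 1 else -1, s, by split_ifs <;> simp, by split_ifs <;> simp, rfl⟩, rfl⟩ ?_
    intro c hc
    obtain ⟨p, hp, rfl⟩ := Finset.mem_image.1 hc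
    exact Finset.mem_insert_of_mem (h1 _ (List.mem_map.2 ⟨p, by simpa using hp, rfl⟩))
  | rp x u ih =>
    intro M B h1 h2 y hyM hyB hyI
    simp only [Tr.ev, List.mem_filter, List.mem_union_iff, List.mem_insert_iff, ne_eq,
      decide_eq_true_eq, not_or] at h1 h2 hyI
    have main : ∀ z, z ∉ M → z ∉ insert y B → x ∈ insert z M → MW l.toFinset M (insert y B) := by
      intro z hz1 hz2 hx
      have hC : ∀ c, c ∈ (u.ev l).1 ∨ c ∈ (u.ev l).2.2 → c ∈ insert z M := by
        intro c hc
        by_cases hcx : c = x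
        · rw [hcx]; exact hx
        · exact Finset.mem_insert_of_mem (h1 c ⟨hc, hcx⟩)
      refine MW.step z hz1 hz2 fun y' hy1 hy2 => ih _ _ (fun c hc => hC c (Or.inl hc)) ?_ y' hy1 hy2
        (fun h => hy1 (hC _ (Or.inr h)))
      intro c hc hcB
      rcases Finset.mem_insert.1 hcB with h | h
      · exact hyI.2 (h ▸ hc)
      · exact h2 c (Or.inr hc) h
    by_cases hx : x ∈ M
    · obtain ⟨z, hz⟩ := Infinite.exists_notMem_finset (M ∪ insert y B)
      rw [Finset.mem_union, not_or] at hz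
      exact main z hz.1 hz.2 (Finset.mem_insert_of_mem hx)
    · refine main x hx ?_ (Finset.mem_insert_self _ _)
      rw [Finset.mem_insert, not_or]
      exact ⟨fun h => hyI.1 h.symm, h2 x (Or.inl rfl)⟩
  | mg u v ihu ihv =>
    intro M B h1 h2 y hyM hyB hyI
    simp only [Tr.ev, List.mem_union_iff, List.mem_inter_iff, not_and] at h1 h2 hyI
    by_cases hy : y ∈ (u.ev l).2.2
    · exact ihv M B (fun c hc => h1 c (Or.inr hc)) (fun c hc => h2 c (Or.inr hc)) y hyM hyB (hyI hy)
    · exact ihu M B (fun c hc => h1 c (Or.inl hc)) (fun c hc => h2 c (Or.inl hc)) y hyM hyB hy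

theorem wins_of_tree (l : List Cell) (u : Tr)
    (h : ((u.ev l).1 ++ (u.ev l).2.2).all (· = (0, 0)) = true) : MakerWins l.toFinset ∅ := by
  simp only [List.all_eq_true, List.mem_append, decide_eq_true_eq] at h
  refine wins_of_MW (MW.step (0, 0) (by simp) (by simp) fun y hy hy' => ?_)
  refine u.sound l _ _ (fun c hc => ?_) (by simp) y hy hy' fun hI => hy ?_
  · rw [h c (Or.inl hc)]; simp
  · rw [h y (Or.inr hI)]; simp

end Vale.Agent.N062
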