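import Vale.Agent.N062.Sparse

namespace Vale.Agent.N062.OldHarary

open Vale.Agent.N062

/-- (1) Q1, in both forms: on the empty board Maker has a winning strategy for Snaky, and Breaker
has no strategy that prevents Maker from owning a copy.
(2) The winners of Harary's achievement game: a polyomino is a winner exactly if it is contained
in an allowed copy of Snaky or of the Y-pentomino; otherwise Breaker can prevent it.
(3) Maker still wins Snaky when the cells of a set `F` are forbidden to him, if some square of
side `N + 18` has fewer than `N ^ 2 / 325` cells in `F`.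
(4) Breaker prevents Snaky when the cells `(x, y)` with `17 ∣ x - 4 y` are forbidden to Maker. -/
theorem all_clauses :
    (MakerWins snaky ∅ ∧ ¬ BreakerPrevents snaky ∅) ∧
    (∀ P : Finset Cell, IsPolyomino P →
      (MakerWins P ∅ ↔ ∃ T, (IsCopyOf snaky T ∨ IsCopyOf yPentomino T) ∧ P ⊆ T) ∧
      (BreakerPrevents P ∅ ↔ ¬ ∃ T, (IsCopyOf snaky T ∨ IsCopyOf yPentomino T) ∧ P ⊆ T)) ∧
    (∀ (F : Set Cell) (a b : ℤ) (N : ℕ),
      325 * (F ∩ Set.Ico a (a + N + 18) ×ˢ Set.Ico b (b + N + 18)).ncard < N ^ 2 →
        MakerWins snaky F) ∧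
    BreakerPrevents snaky {c : Cell | (17 : ℤ) ∣ c.1 - 4 * c.2} :=
  ⟨⟨snaky_wins, not_both snaky_wins⟩, fun _ hP => classification snaky_wins hP, wins_sparse,
    prevents17⟩

end Vale.Agent.N062.OldHarary
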