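import Vale.Agent.N062.Classify
import Vale.Agent.P062.H307.Final

/-! # Snaky against a sparse set of forbidden cells -/

namespace Vale.Agent.N062

open Vale.Agent.P062 (cells cellOf isoTrans makerClaim)
open Vale.Agent.P062.FD

theorem wins_of_mwr {R F : Set Cell} {n : ℕ} (h : MWR R n ∅ ∅) (hF : ∀ c ∈ R, c ∉ F) :
    MakerWins snaky F := by
  obtain ⟨σ, hσ⟩ := Vale.Agent.P062.FD.exists_strat h
  refine ⟨σ, fun m b hm hb => ?_⟩
  obtain rfl : m = makerClaim σ b := funext hm
  obtain ⟨j, -, h1, T, hT, h2⟩ := hσ b (fun k _ => ⟨by simp, by simp, hb k⟩)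
  have hj0 : j ≠ 0 := by
    rintro rfl
    obtain ⟨t, R, _, rfl⟩ := hT
    rcases h2 (t + R (0, 0)) (Finset.mem_image.2 ⟨(0, 0), by decide, rfl⟩) with h | ⟨k, hk, _⟩
    · simp at h
    · omega
  obtain ⟨i, rfl⟩ := Nat.exists_eq_succ_of_ne_zero hj0
  refine ⟨i, fun k hk => ⟨hF _ (h1 k (by omega)).1, (h1 k (by omega)).2.2.2⟩, T, hT,
    fun c hc => ?_⟩
  rcases h2 c hc with h | ⟨k, hk, h3⟩
  · simp at h
  · exact ⟨k, by omega, h3⟩

theorem snaky_wins : MakerWins snaky ∅ := wins_of_mwr mwr (fun _ _ => id)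

/-- the mask of the region used by the winning strategy -/
def reg : ℕ := 132354108838884748344212314667013325528496029880218463033203856710985394231009682297797642225693118807376677196110905786314258131576883795144055605262298486867764439365454079902360339187149868047692075499433948719611904

theorem mwr_reg : MWR (cells reg) 20 ∅ ∅ := by
  have h := Cert.L128
  have hC : Nat.beq 1386334847060407429789207092071541851718218537687908287585239790307310653902812811519987203052069789048695605480701785914487078912 (Nat.shiftLeft 1 429) = true := by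
    decide +kernel
  rw [Nat.eq_of_beq_eq_true hC] at h
  exact MWR_of_PartN _ h (Vale.Agent.P062.mem_cells_cellOf.2 (by decide +kernel)) (le_refl _)

theorem reg_box : cells reg ⊆ boxS :=
  (Vale.Agent.P062.cells_subset_of_lor (Nat.eq_of_beq_eq_true (by decide +kernel))).trans cells_bd

theorem exists_region : ∃ W : Finset Cell, W.card ≤ 325 ∧ (W : Set Cell) ⊆ boxS ∧
    MWR (W : Set Cell) 20 ∅ ∅ := by
  have h1 : ((List.range 1024).filter fun n => reg.testBit n).length = 325 := by decide +kernel
  let W : Finset Cell := (((List.range 1024).filter fun n => reg.testBit n).map cellOf).toFinset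
  have hW : (W : Set Cell) = cells reg := by
    ext c
    simp only [W, List.coe_toFinset, List.mem_map, List.mem_filter, List.mem_range,
      Set.mem_ofPred_eq]
    constructor
    · rintro ⟨n, ⟨-, hn⟩, rfl⟩
      exact ⟨n, hn, rfl⟩
    · rintro ⟨n, hn, rfl⟩
      refine ⟨n, ⟨?_, hn⟩, rfl⟩
      have h2 := reg_box ⟨n, hn, rfl⟩
      simp only [boxS, cellOf, Set.mem_ofPred_eq] at h2
      omega
  refine ⟨W, ?_, hW ▸ reg_box, hW ▸ mwr_reg⟩
  refine (List.toFinset_card_le _).trans ?_
  rw [List.length_map, h1]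

/-- if fewer than `N² / 325` cells of a square of side `N + 18` are forbidden, Maker wins -/
theorem wins_sparse (F : Set Cell) (a b : ℤ) (N : ℕ)
    (h : 325 * (F ∩ Set.Ico a (a + N + 18) ×ˢ Set.Ico b (b + N + 18)).ncard < N ^ 2) :
    MakerWins snaky F := by
  classical
  obtain ⟨W, hW1, hW2, hW3⟩ := exists_region
  have hfin : (F ∩ Set.Ico a (a + N + 18) ×ˢ Set.Ico b (b + N + 18)).Finite :=
    ((Set.finite_Ico _ _).prod (Set.finite_Ico _ _)).inter_of_right F
  let V : Finset Cell := Finset.Ico (a - 4) (a - 4 + N) ×ˢ Finset.Ico (b - 4) (b - 4 + N)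
  let Bad : Finset Cell := (hfin.toFinset ×ˢ W).image fun x => x.1 - x.2
  have hV : V.card = N ^ 2 := by
    simp [V, sq]
  have hBad : Bad.card < V.card := by
    refine Finset.card_image_le.trans_lt ?_
    rw [Finset.card_product, ← Set.ncard_eq_toFinset_card _ hfin, hV]
    nlinarith
  obtain ⟨v, hv, hvB⟩ := Finset.exists_mem_notMem_of_card_lt_card hBad
  have h2 := MWR.iso (isoTrans v) hW3
  rw [Finset.map_empty] at h2
  refine wins_of_mwr h2 ?_
  rintro c ⟨w, hw, rfl⟩ hc
  refine hvB (Finset.mem_image.2 ⟨(v + w, w), Finset.mem_product.2 ⟨?_, hw⟩, by simp⟩)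
  rw [Set.Finite.mem_toFinset]
  refine ⟨hc, ?_⟩
  have h3 := hW2 hw
  simp only [boxS, Set.mem_ofPred_eq] at h3
  simp only [V, Finset.mem_product, Finset.mem_Ico] at hv
  simp only [Set.mem_prod, Set.mem_Ico, Prod.fst_add, Prod.snd_add]
  omega

end Vale.Agent.N062
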